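import Mathlib

namespace Vale.Agent.P122

open MeasureTheory Set
open scoped ENNReal NNReal

/-- The point of the paraboloid `ξ₃ = ξ₁² + ξ₂²` above `(ξ₁, ξ₂)`. -/
def graph (ξ : ℝ × ℝ) : ℝ × ℝ × ℝ := (ξ.1, ξ.2, ξ.1 ^ 2 + ξ.2 ^ 2)

/-- The surface measure of `Σ = {(ξ₁, ξ₂, ξ₁² + ξ₂²) : 0 ≤ ξ₁, ξ₂ ≤ 1}`. -/
noncomputable def surf : Measure (ℝ × ℝ × ℝ) :=
  ((volume.restrict (Icc (0:ℝ) 1 ×ˢ Icc (0:ℝ) 1)).withDensity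
    (fun ξ => ENNReal.ofReal (Real.sqrt (1 + 4 * ξ.1 ^ 2 + 4 * ξ.2 ^ 2)))).map graph

/-- The Fourier extension operator of `Σ` with its surface measure. -/
noncomputable def extension (f : ℝ × ℝ × ℝ → ℂ) (x : ℝ × ℝ × ℝ) : ℂ :=
  ∫ ω, f ω * Complex.exp (2 * Real.pi * Complex.I *
    ((x.1 * ω.1 + x.2.1 * ω.2.1 + x.2.2 * ω.2.2 : ℝ) : ℂ)) ∂surf

/-- The slice `b ↦ f (a, b, a² + b²)` of `f` over the unit interval, extended by zero. -/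
noncomputable def slice (f : ℝ × ℝ × ℝ → ℂ) (a : ℝ) : ℝ → ℂ :=
  (Icc (0:ℝ) 1).indicator fun b => f (a, b, a ^ 2 + b ^ 2)

/-- The square of the (Gagliardo) norm of `g` in the Sobolev space `H^s` of the line. -/
noncomputable def sobolevSq (s : ℝ) (g : ℝ → ℂ) : ℝ≥0∞ :=
  (∫⁻ b, ‖g b‖ₑ ^ 2) + ∫⁻ b, ∫⁻ b', ‖g b - g b'‖ₑ ^ 2 / ENNReal.ofReal (|b - b'| ^ (1 + 2 * s))

/-- Boundedness of the extension operator from `L^p([0,1]; H^s)` to `L^p(ℝ³)`. -/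
def ExtensionBound (p s : ℝ) : Prop :=
  ∃ C : ℝ≥0, ∀ f : ℝ × ℝ × ℝ → ℂ, Measurable f →
    eLpNorm (extension f) (ENNReal.ofReal p) volume
      ≤ C * (∫⁻ a in Icc (0:ℝ) 1, (sobolevSq s (slice f a)) ^ (p / 2)) ^ (1 / p)

end Vale.Agent.P122
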